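import Vale.Agent.P073Z.A3
import Vale.Agent.P073Z.A1b

/-!
# Uniform charts for cells cut out by integral forms
-/

open Set Metric Topology Filter
open scoped NNReal

namespace P073

namespace Shape

variable {E : Type} [NormedAddCommGroup E] [NormedSpace ℝ E]

theorem mono {n : ℕ} {C B : Set E} {M M' : ℝ≥0} (h : BiChart n C B M) (hM : M ≤ M') :
    BiChart n C B M' :=
  let ⟨h0, φ, h1, h2, h3⟩ := h
  ⟨h0, φ, h1, h2.weaken hM, h3.weaken hM⟩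

theorem exists_of_ball [FiniteDimensional ℝ E] {n : ℕ} {C B : Set E} (hl : LocCone C)
    (h : ConBall n C B) : ∃ M, BiChart n C B M := by
  have hK := h.isCompact
  obtain ⟨h0, φ, h1⟩ := h
  obtain ⟨M₁, h2⟩ := lip hK hl ⟨φ.cont, φ.conical⟩
  obtain ⟨M₂, h3⟩ := lip (isCompact_closedBall (0 : Fin n → ℝ) 1) (locCone_closedBall_pi n 1)
    ⟨φ.cont_inv, φ.conical_inv⟩
  exact ⟨max M₁ M₂, h0, φ, h1, h2.weaken (le_max_left _ _), h3.weaken (le_max_right _ _)⟩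

theorem translate {n : ℕ} {C B : Set E} {M : ℝ≥0} (z : E) (h : BiChart n C B M) :
    BiChart n ((fun x => x + z) '' C) ((fun x => x + z) '' B) M := by
  obtain ⟨h0, φ, h1, h2, h3⟩ := h
  refine ⟨image_mono h0, (ConHomeo.translate z φ.conicalSet_left).symm.trans φ, ?_, ?_, ?_⟩
  · rw [← h1, image_image]
    exact image_congr fun x _ => congrArg φ.toFun (add_sub_cancel_right x z)
  · rintro _ ⟨x, hx, rfl⟩ _ ⟨y, hy, rfl⟩
    have h4 := h2 hx hy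
    rw [← edist_add_right x y z] at h4
    refine le_of_eq_of_le ?_ h4
    congr 1
    · exact congrArg φ.toFun (add_sub_cancel_right x z)
    · exact congrArg φ.toFun (add_sub_cancel_right y z)
  · intro x hx y hy
    have h4 := h3 hx hy
    rw [← edist_add_right _ _ z] at h4
    exact h4

theorem span_translate (z : E) (C : Set E) :
    vectorSpan ℝ ((fun x => x + z) '' C) = vectorSpan ℝ C := by
  have h := (AffineEquiv.vaddConst ℝ z).toAffineMap.map_vectorSpan (s := C)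
  have h1 : (AffineEquiv.vaddConst ℝ z).toAffineMap.linear = LinearMap.id := rfl
  rw [h1, Submodule.map_id] at h
  exact h.symm

theorem frontier_translate (z : E) (C : Set E) :
    intrinsicFrontier ℝ ((fun x => x + z) '' C) = (fun x => x + z) '' intrinsicFrontier ℝ C :=
  (AffineIsometryEquiv.vaddConst ℝ z).toAffineIsometry.intrinsicFrontier_image C

end Shape

theorem shape : SHAPE := by
  classical
  intro n Λ₀ R hΛ
  obtain ⟨N, hN⟩ : ∃ N : ℤ, ∀ ℓ ∈ Λ₀, ∀ x : Fin n → ℝ, ‖x‖ ≤ R + 1 → |ℓ x| ≤ N := by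
    obtain ⟨N, hN⟩ := exists_int_gt
      (∑ ℓ ∈ Λ₀, ‖LinearMap.toContinuousLinearMap ℓ‖ * |R + 1|)
    refine ⟨N, fun ℓ hℓ x hx => ?_⟩
    have h1 := (LinearMap.toContinuousLinearMap ℓ).le_opNorm x
    have h2 := Finset.single_le_sum
      (f := fun ℓ : (Fin n → ℝ) →ₗ[ℝ] ℝ => ‖LinearMap.toContinuousLinearMap ℓ‖ * |R + 1|)
      (fun _ _ => by positivity) hℓ
    have h3 := mul_le_mul_of_nonneg_left (hx.trans (le_abs_self _))
      (norm_nonneg (LinearMap.toContinuousLinearMap ℓ))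
    exact (h1.trans (h3.trans h2)).trans hN.le
  let S : (Λ₀ → Finset.Icc (-N) N × Finset.Icc (-N) N) → Set (Fin n → ℝ) := fun q =>
    {x | ∀ ℓ : Λ₀, (((q ℓ).1 : ℤ) : ℝ) ≤ ℓ.1 x ∧ ℓ.1 x ≤ (((q ℓ).2 : ℤ) : ℝ)}
  have hS : ∀ q, ∃ M : ℝ≥0, (S q).Nonempty → Bornology.IsBounded (S q) →
      BiChart (Module.finrank ℝ (vectorSpan ℝ (S q))) (S q) (intrinsicFrontier ℝ (S q)) M := by
    intro q
    by_cases h : (S q).Nonempty ∧ Bornology.IsBounded (S q)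
    · have he : S q = ⋂ ℓ : Λ₀, ({x | (((q ℓ).1 : ℤ) : ℝ) ≤ ℓ.1 x} ∩
          {x | ℓ.1 x ≤ (((q ℓ).2 : ℤ) : ℝ)}) := by
        ext x
        simp only [S, mem_iInter, mem_inter_iff, mem_ofPred_eq]
      have hc : ∀ ℓ : Λ₀, Continuous ℓ.1 := fun ℓ => ℓ.1.continuous_of_finiteDimensional
      have hk : ∀ ℓ : Λ₀, ConicalOn ℓ.1 univ := fun ℓ =>
        conicalOn_linear ℓ.1 locCone_univ.conicalSet
      have hl : LocCone (S q) := he ▸ LocCone.iInter_finite fun ℓ =>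
        (locCone_setOf_ge (hc ℓ) (hk ℓ) _).inter (locCone_setOf_le (hc ℓ) (hk ℓ) _)
      have hcl : IsClosed (S q) := he ▸ isClosed_iInter fun ℓ =>
        (isClosed_le continuous_const (hc ℓ)).inter (isClosed_le (hc ℓ) continuous_const)
      have hv : Convex ℝ (S q) := he ▸ convex_iInter fun ℓ =>
        (convex_halfSpace_ge ℓ.1.isLinear _).inter (convex_halfSpace_le ℓ.1.isLinear _)
      obtain ⟨M, hM⟩ := Shape.exists_of_ball hl
        (cvx (isCompact_of_isClosed_isBounded hcl h.2) hv hl h.1)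
      exact ⟨M, fun _ _ => hM⟩
    · exact ⟨0, fun h1 h2 => (h ⟨h1, h2⟩).elim⟩
  choose M hM using hS
  refine ⟨Finset.univ.sup M, fun a b C hC ⟨x₀, hx₀⟩ hR => ?_⟩
  let z : Fin n → ℝ := fun i => (⌊x₀ i⌋ : ℝ)
  have hz : ∀ ℓ : Λ₀, ∃ m : ℤ, ℓ.1 z = m := fun ℓ => by
    choose m hm using hΛ ℓ.1 ℓ.2
    refine ⟨∑ i, ⌊x₀ i⌋ * m i, ?_⟩
    rw [ℓ.1.pi_apply_eq_sum_univ z]
    push_cast
    refine Finset.sum_congr rfl fun i _ => ?_
    rw [← hm i, smul_eq_mul]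
    congr 2
    funext j
    simp only [Pi.single_apply, eq_comm]
  choose m hm using hz
  have hb : ∀ x ∈ C, ‖x - z‖ ≤ R + 1 := fun x hx => by
    have h1 : ‖x₀ - z‖ ≤ 1 := (pi_norm_le_iff_of_nonneg zero_le_one).2 fun i => by
      rw [Pi.sub_apply, Real.norm_eq_abs, abs_le]
      exact ⟨by linarith [Int.floor_le (x₀ i)], by linarith [Int.lt_floor_add_one (x₀ i)]⟩
    have h2 := hR x hx x₀ hx₀
    rw [dist_eq_norm] at h2
    linarith [norm_sub_le_norm_sub_add_norm_sub x x₀ z]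
  have hab : ∀ x ∈ C, ∀ ℓ : Λ₀, ((a ℓ.1 - m ℓ : ℤ) : ℝ) ≤ ℓ.1 (x - z) ∧
      ℓ.1 (x - z) ≤ ((b ℓ.1 - m ℓ : ℤ) : ℝ) ∧ ((-N : ℤ) : ℝ) ≤ ℓ.1 (x - z) ∧
      ℓ.1 (x - z) ≤ (N : ℝ) := fun x hx ℓ => by
    have h1 := abs_le.1 (hN ℓ.1 ℓ.2 _ (hb x hx))
    rw [hC] at hx
    have h2 := hx ℓ.1 ℓ.2
    push_cast
    refine ⟨?_, ?_, h1.1, h1.2⟩ <;> rw [map_sub, hm] <;> linarith [h2.1, h2.2]
  have h0 : ∀ ℓ : Λ₀, a ℓ.1 - m ℓ ≤ N ∧ -N ≤ b ℓ.1 - m ℓ ∧ -N ≤ N := fun ℓ => by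
    obtain ⟨h1, h2, h3, h4⟩ := hab x₀ hx₀ ℓ
    exact ⟨by exact_mod_cast h1.trans h4, by exact_mod_cast h3.trans h2,
      by exact_mod_cast h3.trans h4⟩
  let q : Λ₀ → Finset.Icc (-N) N × Finset.Icc (-N) N := fun ℓ =>
    (⟨max (a ℓ.1 - m ℓ) (-N), Finset.mem_Icc.2
      ⟨le_max_right _ _, max_le (h0 ℓ).1 (h0 ℓ).2.2⟩⟩,
     ⟨min (b ℓ.1 - m ℓ) N, Finset.mem_Icc.2
      ⟨le_min (h0 ℓ).2.1 (h0 ℓ).2.2, min_le_right _ _⟩⟩)
  have h1 : ∀ x ∈ C, x - z ∈ S q := fun x hx ℓ => by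
    obtain ⟨h1, h2, h3, h4⟩ := hab x hx ℓ
    simp only [q, Int.cast_max, Int.cast_min]
    exact ⟨max_le h1 h3, le_min h2 h4⟩
  have h2 : ∀ y ∈ S q, y + z ∈ C := fun y hy => by
    rw [hC]
    intro ℓ hℓ
    have h3 := hy ⟨ℓ, hℓ⟩
    simp only [q, Int.cast_max, Int.cast_min, max_le_iff, le_min_iff, Int.cast_sub] at h3
    have h4 := hm ⟨ℓ, hℓ⟩
    rw [map_add]
    exact ⟨by linarith [h3.1.1], by linarith [h3.2.1]⟩
  have he : C = (fun x => x + z) '' S q := Subset.antisymm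
    (fun x hx => ⟨x - z, h1 x hx, sub_add_cancel x z⟩) (by
      rintro _ ⟨y, hy, rfl⟩
      exact h2 y hy)
  have h3 := hM q ⟨_, h1 x₀ hx₀⟩ (isBounded_iff_forall_norm_le.2 ⟨R + 1, fun y hy => by
    have := hb _ (h2 y hy)
    rwa [add_sub_cancel_right] at this⟩)
  rw [he, Shape.span_translate, Shape.frontier_translate]
  exact Shape.mono (Shape.translate z h3) (Finset.le_sup (Finset.mem_univ q))

end P073
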