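import Vale.Agent.P073Z.SHELL.A

/-!
# Star bodies are balls
-/

open Set Metric Topology Filter

namespace P073

namespace Starb

variable {E : Type} [NormedAddCommGroup E] [NormedSpace ℝ E]

theorem rayBase {K : Set E} (hK : IsCompact K) (h0 : K ∈ 𝓝 (0:E))
    (hs : ∀ x ∈ K, ∀ s ∈ Ico (0:ℝ) 1, s • x ∈ interior K) : RayBase (frontier K) := by
  have hsub : frontier K ⊆ K := hK.isClosed.frontier_subset
  refine ⟨hK.of_isClosed_subset isClosed_frontier hsub,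
    fun h => h.2 (mem_interior_iff_mem_nhds.2 h0), fun x hx s hs0 hsx => ?_⟩
  rcases lt_trichotomy s 1 with h | h | h
  · exact (hsx.2 (hs x (hsub hx) s ⟨hs0.le, h⟩)).elim
  · exact h
  · have := hs _ (hsub hsx) s⁻¹ ⟨(inv_pos.2 hs0).le, inv_lt_one_of_one_lt₀ h⟩
    rw [smul_smul, inv_mul_cancel₀ hs0.ne', one_smul] at this
    exact (hx.2 this).elim

/-- every ray from the origin meets the frontier -/
theorem exists_ray {K : Set E} (hK : IsCompact K) (h0 : K ∈ 𝓝 (0:E)) {y : E} (hy : y ≠ 0) :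
    ∃ t : ℝ, 0 < t ∧ ∃ θ ∈ frontier K, y = t • θ ∧ (y ∈ K → t ≤ 1) := by
  have hS : IsCompact ((fun t : ℝ => t • y) ⁻¹' K) :=
    (isClosedEmbedding_smul_left hy).isCompact_preimage hK
  have h0S : (0:ℝ) ∈ (fun t : ℝ => t • y) ⁻¹' K := by
    simpa using mem_of_mem_nhds h0
  obtain ⟨t, ht, hmax⟩ := hS.exists_isGreatest ⟨0, h0S⟩
  have hfr : t • y ∈ frontier K := by
    refine ⟨subset_closure ht, fun hi => ?_⟩
    have hc : Continuous fun t : ℝ => t • y := by fun_prop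
    have h1 : ∀ᶠ s in 𝓝 t, s • y ∈ K :=
      hc.continuousAt.eventually_mem (mem_interior_iff_mem_nhds.1 hi)
    obtain ⟨s, hs1, hs2⟩ := ((h1.filter_mono nhdsWithin_le_nhds).and
      (self_mem_nhdsWithin (s := Ioi t) (a := t))).exists
    exact absurd (hmax hs1) (not_le.2 hs2)
  have ht0 : 0 < t := by
    rcases (hmax h0S).eq_or_lt with h | h
    · rw [← h, zero_smul] at hfr
      exact (hfr.2 (mem_interior_iff_mem_nhds.2 h0)).elim
    · exact h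
  refine ⟨t⁻¹, inv_pos.2 ht0, _, hfr, ?_, fun hyK => ?_⟩
  · rw [smul_smul, inv_mul_cancel₀ ht0.ne', one_smul]
  · exact inv_le_one_of_one_le₀ (hmax (show (1:ℝ) • y ∈ K by simpa using hyK))

/-- the gauge of a star body -/
theorem exists_gauge [Nontrivial E] {K : Set E} (hK : IsCompact K) (hc : LocCone K)
    (h0 : K ∈ 𝓝 (0:E)) (hs : ∀ x ∈ K, ∀ s ∈ Ico (0:ℝ) 1, s • x ∈ interior K) :
    ∃ N : E → ℝ, PLOn N univ ∧ (∀ x, ∀ t : ℝ, 0 ≤ t → N (t • x) = t * N x) ∧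
      (∀ x, x ≠ 0 → 0 < N x) ∧ (∀ x, x ∈ K ↔ N x ≤ 1) ∧ ∀ x, x ∈ frontier K ↔ N x = 1 := by
  have hR := rayBase hK h0 hs
  have hsub : frontier K ⊆ K := hK.isClosed.frontier_subset
  have hst : ∀ x ∈ K, ∀ s ∈ Icc (0:ℝ) 1, s • x ∈ K := by
    intro x hx s hs1
    rcases hs1.2.eq_or_lt with h | h
    · rwa [h, one_smul]
    · exact interior_subset (hs x hx s ⟨hs1.1, h⟩)
  obtain ⟨θ₀, hθ₀⟩ : (frontier K).Nonempty := by
    obtain ⟨y, hy⟩ := exists_ne (0:E)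
    obtain ⟨_, _, θ, hθ, _⟩ := exists_ray hK h0 hy
    exact ⟨θ, hθ⟩
  have hcone : coneSet (frontier K) = K := by
    refine Subset.antisymm ?_ fun y hy => ?_
    · rintro _ ⟨s, hs1, x, hx, rfl⟩
      exact hst x (hsub hx) s hs1
    · by_cases hy0 : y = 0
      · exact ⟨0, ⟨le_rfl, zero_le_one⟩, θ₀, hθ₀, by rw [hy0, zero_smul]⟩
      · obtain ⟨t, ht, θ, hθ, e, h1⟩ := exists_ray hK h0 hy0
        exact ⟨t, ⟨ht.le, h1 hy⟩, θ, hθ, e⟩
  set f : E → ℝ := coneMap (frontier K) fun _ => (1:ℝ) with hf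
  have hf1 : ContinuousOn f K := by
    have := continuousOn_coneMap hR (φ := fun _ => (1:ℝ)) continuousOn_const
    rwa [hcone] at this
  have hf2 : ConicalOn f K := by
    have := conicalOn_coneMap hR (φ := fun _ => (1:ℝ))
      (conicalOn_const _ hc.frontier.conicalSet)
    rwa [hcone] at this
  have hf3 : ∀ s ∈ Icc (0:ℝ) 1, ∀ θ ∈ frontier K, f (s • θ) = s := by
    intro s hs1 θ hθ
    rw [hf, coneMap_smul hR _ hs1 hθ, smul_eq_mul, mul_one]
  obtain ⟨N, hN1, hN2, hN3⟩ := exists_homogeneous_map h0 f hf1 hf2 (by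
    intro x hx s hs1
    refine ⟨hst x hx s hs1, ?_⟩
    rw [← hcone] at hx
    obtain ⟨u, hu, θ, hθ, rfl⟩ := hx
    rw [smul_smul, hf3 _ ⟨mul_nonneg hs1.1 hu.1, mul_le_one₀ hs1.2 hu.1 hu.2⟩ θ hθ, hf3 u hu θ hθ,
      smul_eq_mul])
  have hN : ∀ t : ℝ, 0 ≤ t → ∀ θ ∈ frontier K, N (t • θ) = t := by
    intro t ht θ hθ
    rcases ht.eq_or_lt with h | h
    · rw [← h, hN3 1 _ one_pos (by simpa using mem_of_mem_nhds h0), inv_one, one_smul, one_smul,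
        hf3 0 ⟨le_rfl, zero_le_one⟩ θ hθ]
    · have e : t⁻¹ • t • θ = (1:ℝ) • θ := by rw [smul_smul, inv_mul_cancel₀ h.ne']
      rw [hN3 t _ h (by rw [e, one_smul]; exact hsub hθ), e, hf3 1 ⟨zero_le_one, le_rfl⟩ θ hθ,
        smul_eq_mul, mul_one]
  have hrep : ∀ y : E, ∃ t : ℝ, 0 ≤ t ∧ ∃ θ ∈ frontier K, y = t • θ ∧ (y ∈ K → t ≤ 1) ∧
      (y ≠ 0 → 0 < t) := by
    intro y
    by_cases hy : y = 0
    · exact ⟨0, le_rfl, θ₀, hθ₀, by rw [hy, zero_smul], fun _ => zero_le_one, fun h => (h hy).elim⟩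
    · obtain ⟨t, ht, θ, hθ, e, h1⟩ := exists_ray hK h0 hy
      exact ⟨t, ht.le, θ, hθ, e, h1, fun _ => ht⟩
  refine ⟨N, ⟨hN1.continuousOn, hN2⟩, fun x s hs0 => ?_, fun x hx => ?_, fun x => ?_, fun x => ?_⟩
  · obtain ⟨t, ht, θ, hθ, rfl, -⟩ := hrep x
    rw [smul_smul, hN _ (mul_nonneg hs0 ht) θ hθ, hN t ht θ hθ]
  · obtain ⟨t, ht, θ, hθ, rfl, -, h2⟩ := hrep x
    rw [hN t ht θ hθ]
    exact h2 hx
  · obtain ⟨t, ht, θ, hθ, rfl, h1, -⟩ := hrep x
    rw [hN t ht θ hθ]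
    exact ⟨h1, fun h => hst θ (hsub hθ) t ⟨ht, h⟩⟩
  · obtain ⟨t, ht, θ, hθ, rfl, -, h2⟩ := hrep x
    rw [hN t ht θ hθ]
    refine ⟨fun h => hR.ray θ hθ t (h2 fun h0' => hR.zero_notMem (h0' ▸ h)) h, fun h => ?_⟩
    rwa [h, one_smul]

theorem starb0 (hS : STAR) {n : ℕ} {K : Set (Fin n → ℝ)} (hK : IsCompact K) (hc : LocCone K)
    (h0 : K ∈ 𝓝 (0 : Fin n → ℝ)) (hs : ∀ x ∈ K, ∀ s ∈ Ico (0:ℝ) 1, s • x ∈ interior K) :
    ConBall n K (frontier K) := by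
  refine ⟨hK.isClosed.frontier_subset, ?_⟩
  rcases subsingleton_or_nontrivial (Fin n → ℝ) with h | h
  · have e : K = closedBall 0 1 := by
      ext x
      rw [Subsingleton.elim x 0]
      simpa using mem_of_mem_nhds h0
    refine ⟨(ConHomeo.refl hc.conicalSet).cast rfl e, ?_⟩
    have e1 : frontier K = ∅ := (isClopen_discrete K).frontier_eq
    rw [e1, image_empty]
    symm
    refine eq_empty_of_forall_notMem fun x hx => ?_
    rw [Subsingleton.elim x 0] at hx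
    simp at hx
  obtain ⟨N, hN1, hN2, hN3, hN4, hN5⟩ := exists_gauge hK hc h0 hs
  obtain ⟨Φ, hΦ, -⟩ := hS (N₁ := N) (N₂ := fun x : Fin n → ℝ => ‖x‖) (ι := Empty)
    (fun i => i.elim) hN1 ⟨continuous_norm.continuousOn, Sh.conicalOn_norm_pi⟩
    (fun x t ht => ⟨hN2 x t ht, by rw [norm_smul, Real.norm_of_nonneg ht]⟩)
    (fun x hx => ⟨hN3 x hx, norm_pos_iff.2 hx⟩) (fun i => i.elim)
  have e : Φ.toFun '' K = closedBall 0 1 := by
    ext y
    rw [Φ.mem_image_iff, hN4, ← hΦ, Φ.apply_inv, mem_closedBall_zero_iff]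
  refine ⟨(Φ.restr hc.conicalSet (subset_univ K)).cast rfl e, ?_⟩
  ext y
  show y ∈ Φ.toFun '' frontier K ↔ _
  rw [Φ.mem_image_iff, hN5, ← hΦ, Φ.apply_inv, mem_sphere_zero_iff_norm]

end Starb

theorem starb_of (hS : STAR) : STARB := by
  intro n K a hK hc ha hs
  let τ : ConHomeo (univ : Set (Fin n → ℝ)) (univ : Set (Fin n → ℝ)) :=
    (ConHomeo.translate (-a) (IsOpen.conicalSet isOpen_univ)).cast rfl (by
      ext y
      simp only [image_univ, mem_range, mem_univ, iff_true]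
      exact ⟨y + a, by abel⟩)
  have hτ : ∀ x, τ.toFun x = x + -a := fun _ => rfl
  have h := Starb.starb0 hS (K := τ.toFun '' K) (hK.image τ.continuous) (hc.image τ) (by
    have := τ.toHomeomorph.isOpenMap.image_mem_nhds ha
    rwa [ConHomeo.coe_toHomeomorph, hτ, add_neg_cancel] at this) (by
    rintro _ ⟨x, hx, rfl⟩ s hs1
    rw [← τ.image_interior]
    refine ⟨_, hs x hx s hs1, ?_⟩
    rw [hτ, hτ, ← sub_eq_add_neg, ← sub_eq_add_neg, add_sub_cancel_left])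
  have h2 := h.image τ.symm (subset_univ _)
  rwa [← τ.image_frontier, ConHomeo.symm_toFun, τ.image_inv_image, τ.image_inv_image] at h2

end P073
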