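import Vale.Agent.P073Z.A4.Strat
import Vale.Agent.P073Z.A1
import Vale.Agent.P073Z.A3
import Vale.Agent.P073Z.ARR
import Vale.Agent.P073Z.TRI
import Vale.Agent.P073Z.DER.Api

/-!
# Homogeneous normalisation of a gauge
-/

open Set Metric Topology Filter

namespace P073.A4

variable {E F : Type} [NormedAddCommGroup E] [NormedSpace ℝ E]
  [NormedAddCommGroup F] [NormedSpace ℝ F]

/-- homogeneous extension, with the formula -/
theorem exists_extend {K : Set E} {L : Set F} (Ψ : ConHomeo K L)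
    (hK : K ∈ 𝓝 (0:E)) (hL : L ∈ 𝓝 (0:F))
    (hom : ∀ x ∈ K, ∀ s ∈ Icc (0:ℝ) 1, s • x ∈ K ∧ Ψ.toFun (s • x) = s • Ψ.toFun x) :
    ∃ Φ : ConHomeo (univ : Set E) (univ : Set F),
      ∀ (t : ℝ) (x : E), 0 < t → t⁻¹ • x ∈ K → Φ.toFun x = t • Ψ.toFun (t⁻¹ • x) := by
  have hom' : ∀ y ∈ L, ∀ s ∈ Icc (0:ℝ) 1, s • y ∈ L ∧ Ψ.invFun (s • y) = s • Ψ.invFun y := by
    intro y hy s hs
    obtain ⟨h1, h2⟩ := hom _ (Ψ.mapsTo_inv hy) s hs
    rw [Ψ.right_inv hy] at h2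
    rw [← h2]
    exact ⟨Ψ.mapsTo h1, Ψ.left_inv h1⟩
  obtain ⟨f, hf1, hf2, hf3⟩ := exists_homogeneous_map hK Ψ.toFun Ψ.cont Ψ.conical hom
  obtain ⟨g, hg1, hg2, hg3⟩ := exists_homogeneous_map hL Ψ.invFun Ψ.cont_inv Ψ.conical_inv hom'
  have key : ∀ {G : Type} [NormedAddCommGroup G] [NormedSpace ℝ G] {M : Set G}, M ∈ 𝓝 (0:G) →
      ∀ x : G, ∃ t : ℝ, 0 < t ∧ t⁻¹ • x ∈ M := by
    intro G _ _ M hM x
    have h1 : Tendsto (fun s : ℝ => s • x) (𝓝[>] 0) (𝓝 0) := by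
      have : Tendsto (fun s : ℝ => s • x) (𝓝 0) (𝓝 ((0:ℝ) • x)) :=
        (continuous_id.smul continuous_const).tendsto 0
      rw [zero_smul] at this
      exact this.mono_left nhdsWithin_le_nhds
    obtain ⟨s, hs, hs0⟩ := ((h1.eventually_mem hM).and self_mem_nhdsWithin).exists
    exact ⟨s⁻¹, inv_pos.2 hs0, by rwa [inv_inv]⟩
  refine ⟨
    { toFun := f
      invFun := g
      mapsTo := mapsTo_univ _ _
      mapsTo_inv := mapsTo_univ _ _
      left_inv := ?_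
      right_inv := ?_
      cont := hf1.continuousOn
      cont_inv := hg1.continuousOn
      conical := hf2 }, hf3⟩
  · intro x _
    obtain ⟨t, ht, hx⟩ := key hK x
    have e := hf3 t x ht hx
    have e2 : t⁻¹ • f x = Ψ.toFun (t⁻¹ • x) := by
      rw [e, smul_smul, inv_mul_cancel₀ ht.ne', one_smul]
    have := hg3 t (f x) ht (by rw [e2]; exact Ψ.mapsTo hx)
    rw [this, e2, Ψ.left_inv hx, smul_smul, mul_inv_cancel₀ ht.ne', one_smul]
  · intro x _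
    obtain ⟨t, ht, hx⟩ := key hL x
    have e := hg3 t x ht hx
    have e2 : t⁻¹ • g x = Ψ.invFun (t⁻¹ • x) := by
      rw [e, smul_smul, inv_mul_cancel₀ ht.ne', one_smul]
    have := hf3 t (g x) ht (by rw [e2]; exact Ψ.mapsTo_inv hx)
    rw [this, e2, Ψ.right_inv hx, smul_smul, mul_inv_cancel₀ ht.ne', one_smul]

section gauge

variable {N : E → ℝ} (hc : Continuous N) (hh : ∀ x, ∀ t : ℝ, 0 ≤ t → N (t • x) = t * N x)
  (hp : ∀ x, x ≠ 0 → 0 < N x)

include hh in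
theorem gauge_zero : N 0 = 0 := by simpa using hh 0 0 le_rfl

include hh hp in
theorem normal_mem {x : E} (hx : x ≠ 0) : N ((N x)⁻¹ • x) = 1 := by
  rw [hh _ _ (inv_pos.2 (hp x hx)).le, inv_mul_cancel₀ (hp x hx).ne']

include hc hh hp in
theorem rayBase_level [FiniteDimensional ℝ E] : RayBase {x | N x = 1} := by
  have h0 : (0:E) ∉ {x | N x = 1} := by simp [gauge_zero hh]
  refine ⟨?_, h0, fun x hx s hs h => ?_⟩
  · have h1 : {x | N x = 1} = (fun x => (N x)⁻¹ • x) '' sphere 0 1 := by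
      refine Subset.antisymm (fun x hx => ?_) ?_
      · have hx0 : x ≠ 0 := fun e => h0 (e ▸ hx)
        have h2 : 0 < ‖x‖ := norm_pos_iff.2 hx0
        refine ⟨‖x‖⁻¹ • x, by simp [norm_smul, h2.ne'], ?_⟩
        show (N (‖x‖⁻¹ • x))⁻¹ • ‖x‖⁻¹ • x = x
        rw [hh _ _ (inv_pos.2 h2).le, show N x = 1 from hx, mul_one, smul_smul,
          inv_mul_cancel₀ (inv_pos.2 h2).ne', one_smul]
      · rintro _ ⟨x, hx, rfl⟩
        exact normal_mem hh hp (ne_of_mem_sphere hx one_ne_zero)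
    rw [h1]
    haveI := FiniteDimensional.proper_real E
    exact (isCompact_sphere _ _).image_of_continuousOn ((hc.continuousOn.inv₀ fun x hx =>
      (hp x (ne_of_mem_sphere hx one_ne_zero)).ne').smul continuousOn_id)
  · have h1 : N (s • x) = 1 := h
    rwa [hh _ _ hs.le, show N x = 1 from hx, mul_one] at h1

include hc hh hp in
theorem cone_level_nhds [Nontrivial E] : coneSet {x | N x = 1} ∈ 𝓝 (0:E) := by
  have h1 : {x | N x < 1} ∈ 𝓝 (0:E) :=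
    (isOpen_lt hc continuous_const).mem_nhds (by simp [gauge_zero hh])
  refine mem_of_superset h1 fun x hx => ?_
  by_cases h0 : x = 0
  · obtain ⟨u, hu⟩ := exists_ne (0:E)
    exact ⟨0, ⟨le_rfl, zero_le_one⟩, _, normal_mem hh hp hu, by rw [h0, zero_smul]⟩
  · exact ⟨N x, ⟨(hp x h0).le, le_of_lt hx⟩, _, normal_mem hh hp h0, by
      rw [smul_smul, mul_inv_cancel₀ (hp x h0).ne', one_smul]⟩

end gauge

/-- change of the weights of the derived coordinates -/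
theorem reweight {Q : RCx E} (d : Derived Q) {s : Finset Q.ι} {c : Q.ι → ℝ}
    (hc : ∀ j ∈ s, 0 < c j) {x : E} (hx : x ∈ Q.carrier) (hs : ∀ j, d.t j x ≠ 0 → j ∈ s) :
    ∃ l : ℝ, ∃ y : E, 0 < l ∧ ∑ j ∈ s, d.t j x • c j • d.b j = l • y ∧ y ∈ Q.carrier ∧
      (∀ j, l * d.t j y = d.t j x * c j) ∧ ∀ m, x ∈ Q.ocell m → y ∈ Q.ocell m := by
  have h0 : ∀ j, 0 ≤ d.t j x * c j := fun j => by
    by_cases h : d.t j x = 0
    · rw [h, zero_mul]
    · exact mul_nonneg (d.nonneg j x) (hc j (hs j h)).le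
  have hl : 0 < ∑ j ∈ s, d.t j x * c j := by
    obtain ⟨m, hm⟩ := Q.exists_ocell hx
    have h1 := (d.top m x hm).1
    exact Finset.sum_pos' (fun j _ => h0 j) ⟨m, hs m h1, mul_pos (d.pos h1) (hc m (hs m h1))⟩
  set l := ∑ j ∈ s, d.t j x * c j with hl'
  have hne : ∀ j, d.t j x * c j / l ≠ 0 ↔ d.t j x ≠ 0 := fun j =>
    ⟨fun h e => h (by rw [e, zero_mul, zero_div]),
      fun h => div_ne_zero (mul_ne_zero h (hc j (hs j h)).ne') hl.ne'⟩
  obtain ⟨h1, h2⟩ := d.coord' (s := s) (a := fun j => d.t j x * c j / l)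
    (fun j => div_nonneg (h0 j) hl.le) (fun j hj => hs j ((hne j).1 hj))
    (fun i j hi hj => d.chain x i j ((hne i).1 hi) ((hne j).1 hj))
    (by rw [← Finset.sum_div, div_self hl.ne'])
  refine ⟨l, _, hl, ?_, h1, fun j => ?_, fun m hm => ?_⟩
  · rw [Finset.smul_sum]
    refine Finset.sum_congr rfl fun j _ => ?_
    rw [smul_smul, smul_smul, mul_div_cancel₀ _ hl.ne']
  · rw [h2, mul_div_cancel₀ _ hl.ne']
  · rw [d.mem_ocell_iff] at hm ⊢
    simp only [h2, hne]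
    exact hm

theorem affine_sum {ι : Type} (s : Finset ι) (A : E →ᵃ[ℝ] ℝ) {a : ι → ℝ} (b : ι → E)
    (h : ∑ j ∈ s, a j = 1) : A (∑ j ∈ s, a j • b j) = ∑ j ∈ s, a j * A (b j) := by
  rw [← Finset.affineCombination_eq_linear_combination s b a h, Finset.map_affineCombination s b a h,
    Finset.affineCombination_eq_linear_combination s _ a h]
  rfl

end P073.A4

namespace P073

open A4 in
theorem star_of (hT : TRI) (hD : DER) : STAR := by
  intro E _ _ _ N₁ N₂ ι _ K h1 h2 hh hp hK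
  classical
  have c1 : Continuous N₁ := continuousOn_univ.1 h1.1
  have c2 : Continuous N₂ := continuousOn_univ.1 h2.1
  have hh1 := fun x t ht => (hh x t ht).1
  have hh2 := fun x t ht => (hh x t ht).2
  have hp1 := fun x hx => (hp x hx).1
  have hp2 := fun x hx => (hp x hx).2
  have cu : ConicalSet (univ : Set E) := IsOpen.conicalSet isOpen_univ
  rcases subsingleton_or_nontrivial E with hE | hE
  · refine ⟨ConHomeo.refl cu, fun x => ?_, fun x t _ => Subsingleton.elim _ _,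
      fun i x => Iff.rfl, fun x _ => rfl⟩
    rw [Subsingleton.elim ((ConHomeo.refl cu).toFun x) 0, Subsingleton.elim x 0, gauge_zero hh1,
      gauge_zero hh2]
  have r1 := rayBase_level c1 hh1 hp1
  have r2 := rayBase_level c2 hh2 hp2
  have l1 : LocCone {x | N₁ x = 1} := locCone_setOf_eq c1 h1.2 1
  let X : Bool ⊕ ι × Fin (Module.finrank ℝ E + 1) → Set E := fun k => match k with
    | Sum.inl true => {x | N₁ x = 1}
    | Sum.inl false => {x | N₁ x - N₂ x = 0}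
    | Sum.inr p => strat (K p.1) p.2
  have hX : ∀ k, IsClosed (X k) ∧ LocCone (X k) := by
    rintro ((_ | _) | p)
    · exact ⟨isClosed_eq (c1.sub c2) continuous_const,
        locCone_setOf_eq (c1.sub c2) (h1.2.sub h2.2) 0⟩
    · exact ⟨r1.compact.isClosed, l1⟩
    · exact ⟨isClosed_strat (hK p.1).1 _, locCone_strat (hK p.1).1 _⟩
  obtain ⟨Q, hQc, hQ, -, hS⟩ := hT (U := univ) X (fun _ => N₂) (r := fun _ => 1) isOpen_univ
    ⟨continuousOn_const, fun _ _ => one_pos⟩ (fun x _ => ⟨univ, univ_mem, toFinite _⟩)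
    fun k => ⟨subset_univ _, fun x _ hx => (hX k).1.closure_subset hx, fun x _ => (hX k).2 x,
      c2.continuousOn, h2.2.mono (hX k).2.conicalSet (subset_univ _)⟩
  have hb : ∀ i, ∃ b, b ∈ Q.ocell i := Q.ocell_nonempty
  choose b hb using hb
  obtain ⟨d, -⟩ := hD Q hQc b hb
  have hu : ∀ x, x ∈ Q.carrier := fun x => hQ ▸ mem_univ x
  have S1 : Q.Sub {x | N₁ x = 1} := (hS (Sum.inl true)).1
  let s := (Q.finite_subset r1.compact fun x _ => hu x).toFinset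
  have hs : ∀ j, j ∈ s ↔ Q.cell j ⊆ {x | N₁ x = 1} := fun j => Finite.mem_toFinset _
  have hsup : ∀ x, N₁ x = 1 → ∀ j, d.t j x ≠ 0 → j ∈ s := fun x hx j hj => by
    obtain ⟨m, h3, h4⟩ := S1 x hx
    exact (hs j).2 ((d.below h3 hj).trans h4)
  have hb2 : ∀ j ∈ s, 0 < N₂ (d.b j) := fun j hj => hp2 _ fun e =>
    r1.zero_notMem (e ▸ (hs j).1 hj (d.b_mem_cell j))
  have hN : ∀ y, N₁ y = 1 → N₂ y = ∑ j ∈ s, d.t j y * N₂ (d.b j) := by
    intro y hy
    obtain ⟨m, h3, h4⟩ := S1 y hy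
    obtain ⟨A, hA⟩ := (hS (Sum.inl true)).2 m h4
    obtain ⟨h5, h6⟩ := d.repr_of (hu y) (hsup y hy)
    have h7 := affine_sum s A d.b h5
    rw [h6] at h7
    rw [hA h3, h7]
    refine Finset.sum_congr rfl fun j _ => ?_
    by_cases h : d.t j y = 0
    · rw [h, zero_mul, zero_mul]
    · rw [hA (d.below h3 h (d.b_mem_cell j))]
  have hrw : ∀ c : Q.ι → ℝ, (∀ j ∈ s, 0 < c j) → ∀ x, N₁ x = 1 → ∃ l : ℝ, ∃ y : E, 0 < l ∧
      ∑ j ∈ s, d.t j x • c j • d.b j = l • y ∧ N₁ y = 1 ∧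
      (∀ j, l * d.t j y = d.t j x * c j) ∧ ∀ m, x ∈ Q.ocell m → y ∈ Q.ocell m := by
    intro c hc x hx
    obtain ⟨l, y, h3, h4, -, h5, h6⟩ := reweight d hc (hu x) (hsup x hx)
    obtain ⟨m, h7, h8⟩ := S1.exists_ocell hx
    exact ⟨l, y, h3, h4, h8 (h6 m h7).1, h5, h6⟩
  let φ : E → E := fun x => ∑ j ∈ s, d.t j x • (N₂ (d.b j))⁻¹ • d.b j
  have hφ := hrw (fun j => (N₂ (d.b j))⁻¹) fun j hj => inv_pos.2 (hb2 j hj)
  have hφ2 : ∀ x, N₁ x = 1 → N₂ (φ x) = 1 := by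
    intro x hx
    obtain ⟨l, y, h3, h4, h5, h6, -⟩ := hφ x hx
    rw [show φ x = l • y from h4, hh2 _ _ h3.le, hN y h5, Finset.mul_sum,
      ← (d.repr_of (hu x) (hsup x hx)).1]
    refine Finset.sum_congr rfl fun j hj => ?_
    rw [← mul_assoc, h6, mul_assoc, inv_mul_cancel₀ (hb2 j hj).ne', mul_one]
  have ht : ∀ j, PLOn (d.t j) univ := fun j => hQ ▸ d.pl j
  have pφ : PLOn φ univ := by
    refine ⟨continuousOn_finsetSum _ fun j _ => (ht j).1.smul continuousOn_const, ?_⟩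
    refine Finset.sum_induction (p := fun g : E → E => ConicalOn g univ)
      (fun j x => d.t j x • (N₂ (d.b j))⁻¹ • d.b j) (fun _ _ => ConicalOn.add)
      (conicalOn_const 0 cu) (s := s) (fun j _ => (ht j).2.linear_comp
        (LinearMap.toSpanSingleton ℝ E ((N₂ (d.b j))⁻¹ • d.b j))) |>.congr fun x _ => ?_
    rw [Finset.sum_apply]
  have iφ : InjOn φ {x | N₁ x = 1} := by
    intro x hx x' hx' e
    obtain ⟨l, y, h3, h4, h5, h6, -⟩ := hφ x hx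
    obtain ⟨l', y', h3', h4', h5', h6', -⟩ := hφ x' hx'
    obtain ⟨rfl, rfl⟩ := r1.unique h5 h5' h3 h3' (h4.symm.trans (e.trans h4'))
    refine d.ext (hu x) (hu x') fun j => ?_
    by_cases hj : j ∈ s
    · exact mul_right_cancel₀ (inv_pos.2 (hb2 j hj)).ne' ((h6 j).symm.trans (h6' j))
    · rw [not_not.1 fun h => hj (hsup x hx j h), not_not.1 fun h => hj (hsup x' hx' j h)]
  have sφ : φ '' {x | N₁ x = 1} = {x | N₂ x = 1} := by
    refine Subset.antisymm ?_ fun z hz => ?_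
    · rintro _ ⟨x, hx, rfl⟩
      exact hφ2 x hx
    have hz0 : z ≠ 0 := fun e => r2.zero_notMem (e ▸ hz)
    have hy := normal_mem hh1 hp1 hz0
    obtain ⟨l, x, h3, -, h5, h6, -⟩ := hrw (fun j => N₂ (d.b j)) hb2 _ hy
    have h7 : l • φ x = (N₁ z)⁻¹ • z := by
      rw [← (d.repr_of (hu _) (hsup _ hy)).2, Finset.smul_sum]
      refine Finset.sum_congr rfl fun j hj => ?_
      rw [smul_smul, smul_smul, h6, mul_assoc, mul_inv_cancel₀ (hb2 j hj).ne', mul_one]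
    exact ⟨x, h5, (r2.unique (hφ2 x h5) hz h3 (inv_pos.2 (hp1 z hz0)) h7).2⟩
  let ψ : ConHomeo {x | N₁ x = 1} {x | N₂ x = 1} := ConHomeo.ofCompact r1.compact φ
    (pφ.1.mono (subset_univ _)) iφ (pφ.2.mono l1.conicalSet (subset_univ _)) sφ
  have hψ : ψ.toFun = φ := ConHomeo.ofCompact_toFun _ _ _ _ _ _
  obtain ⟨Φ, hΦ⟩ := exists_extend (ConHomeo.cone r1 r2 ψ) (cone_level_nhds c1 hh1 hp1)
    (cone_level_nhds c2 hh2 hp2) (by
      rintro _ ⟨a, ha, u, hu, rfl⟩ r hr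
      have hra : r * a ∈ Icc (0:ℝ) 1 := ⟨mul_nonneg hr.1 ha.1, mul_le_one₀ hr.2 ha.1 ha.2⟩
      refine ⟨⟨_, hra, u, hu, smul_smul _ _ _⟩, ?_⟩
      rw [smul_smul, ConHomeo.cone_smul r1 r2 ψ hra hu, ConHomeo.cone_smul r1 r2 ψ ha hu,
        smul_smul])
  have hΦ1 : ∀ x, x ≠ 0 → Φ.toFun x = N₁ x • φ ((N₁ x)⁻¹ • x) := fun x hx => by
    rw [hΦ _ x (hp1 x hx) (subset_coneSet (normal_mem hh1 hp1 hx)),
      ConHomeo.cone_eqOn r1 r2 ψ (normal_mem hh1 hp1 hx), hψ]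
  have hΦ0 : Φ.toFun 0 = 0 := by
    obtain ⟨u, hu⟩ := exists_ne (0:E)
    have h3 := normal_mem hh1 hp1 hu
    have h4 := ConHomeo.cone_smul r1 r2 ψ (s := 0) ⟨le_rfl, zero_le_one⟩ h3
    rw [zero_smul, zero_smul] at h4
    rw [hΦ 1 0 one_pos ⟨0, ⟨le_rfl, zero_le_one⟩, _, h3, by simp⟩, smul_zero, h4, smul_zero]
  refine ⟨Φ, fun x => ?_, fun x t ht => ?_, fun i x => ?_, fun x hx => ?_⟩
  · by_cases h0 : x = 0
    · rw [h0, hΦ0, gauge_zero hh1, gauge_zero hh2]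
    · rw [hΦ1 x h0, hh2 _ _ (hp1 x h0).le, hφ2 _ (normal_mem hh1 hp1 h0), mul_one]
  · by_cases h0 : x = 0
    · rw [h0, smul_zero, hΦ0, smul_zero]
    rcases ht.eq_or_lt with rfl | ht'
    · rw [zero_smul, hΦ0, zero_smul]
    · rw [hΦ1 x h0, hΦ1 _ (smul_ne_zero ht'.ne' h0), hh1 _ _ ht, smul_smul, smul_smul, mul_inv,
        mul_comm t⁻¹, mul_assoc, inv_mul_cancel₀ ht'.ne', mul_one]
  · by_cases h0 : x = 0
    · rw [h0, hΦ0]
    obtain ⟨l, y, h3, h4, -, -, h6⟩ := hφ _ (normal_mem hh1 hp1 h0)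
    obtain ⟨m, hm⟩ := Q.exists_ocell (hu ((N₁ x)⁻¹ • x))
    rw [hΦ1 x h0, show φ _ = l • y from h4, (hK i).2 _ _ (hp1 x h0), (hK i).2 _ _ h3,
      mem_iff_of_sub (hK i).1 (fun k hk => (hS (Sum.inr (i, ⟨k, Nat.lt_succ_of_le hk⟩))).1)
        (h6 m hm) hm, (hK i).2 _ _ (inv_pos.2 (hp1 x h0))]
  · by_cases h0 : x = 0
    · rw [h0, hΦ0]
    have h3 := normal_mem hh1 hp1 h0
    have h4 : N₁ ((N₁ x)⁻¹ • x) - N₂ ((N₁ x)⁻¹ • x) = 0 := by
      rw [hh1 _ _ (inv_pos.2 (hp1 x h0)).le, hh2 _ _ (inv_pos.2 (hp1 x h0)).le, hx, sub_self]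
    obtain ⟨m, h5, h6⟩ := (hS (Sum.inl false)).1 _ h4
    have h7 : φ ((N₁ x)⁻¹ • x) = (N₁ x)⁻¹ • x := by
      refine Eq.trans (Finset.sum_congr rfl fun j hj => ?_) (d.repr_of (hu _) (hsup _ h3)).2
      by_cases h : d.t j ((N₁ x)⁻¹ • x) = 0
      · rw [h, zero_smul, zero_smul]
      · have h8 : N₁ (d.b j) - N₂ (d.b j) = 0 := h6 (d.below h5 h (d.b_mem_cell j))
        have h9 : N₁ (d.b j) = 1 := (hs j).1 hj (d.b_mem_cell j)
        rw [← sub_eq_zero.1 h8, h9, inv_one, one_smul]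
    rw [hΦ1 x h0, h7, smul_smul, mul_inv_cancel₀ (hp1 x h0).ne', one_smul]

theorem star_thm : STAR := star_of (tri_of (arr_of cvx) stm) der

end P073
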