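import Vale.Agent.P073Z.RCX

/-!
# Strata of a locally conical set
-/

open Set Metric Topology Filter

namespace P073.A4

variable {E : Type} [NormedAddCommGroup E] [NormedSpace ℝ E]

/-- the tangent cone -/
def tc (K : Set E) (x : E) : Set E := {v | ∀ᶠ t : ℝ in 𝓝[>] 0, x + t • v ∈ K}

theorem mem_tc {K : Set E} {x v : E} : v ∈ tc K x ↔ ∀ᶠ t : ℝ in 𝓝[>] 0, x + t • v ∈ K := Iff.rfl

theorem tendsto_mul_pos {c : ℝ} (hc : 0 < c) : Tendsto (fun t : ℝ => t * c) (𝓝[>] 0) (𝓝[>] 0) := by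
  refine tendsto_nhdsWithin_iff.2 ⟨?_, ?_⟩
  · have : Tendsto (fun t : ℝ => t * c) (𝓝 0) (𝓝 (0 * c)) :=
      (continuous_id.mul continuous_const).tendsto 0
    rw [zero_mul] at this
    exact this.mono_left nhdsWithin_le_nhds
  · filter_upwards [self_mem_nhdsWithin] with t ht using mul_pos ht hc

theorem smul_mem_tc {K : Set E} {x v : E} {c : ℝ} (hc : 0 < c) (h : v ∈ tc K x) :
    c • v ∈ tc K x := by
  have := (tendsto_mul_pos hc).eventually h
  filter_upwards [this] with t ht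
  rwa [smul_smul]

theorem smul_mem_tc_iff {K : Set E} {x v : E} {c : ℝ} (hc : 0 < c) :
    c • v ∈ tc K x ↔ v ∈ tc K x :=
  ⟨fun h => by simpa [smul_smul, inv_mul_cancel₀ hc.ne'] using smul_mem_tc (inv_pos.2 hc) h,
    smul_mem_tc hc⟩

/-- the directions in which the tangent cone is invariant -/
def lin (K : Set E) (x : E) : Submodule ℝ E where
  carrier := {w | ∀ (v : E) (c : ℝ), v + c • w ∈ tc K x ↔ v ∈ tc K x}
  add_mem' := fun {a b} ha hb v c => by
    rw [smul_add, ← add_assoc, hb, ha]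
  zero_mem' := fun v c => by rw [smul_zero, add_zero]
  smul_mem' := fun a w hw v c => by rw [smul_smul, hw]

theorem lin_congr {K K' : Set E} {x x' : E} (h : tc K x = tc K' x') : lin K x = lin K' x' := by
  ext w
  show (∀ (v : E) (c : ℝ), v + c • w ∈ tc K x ↔ v ∈ tc K x) ↔
    ∀ (v : E) (c : ℝ), v + c • w ∈ tc K' x' ↔ v ∈ tc K' x'
  rw [h]

section cone

variable {C : Set E} (hC : ∀ v, ∀ c : ℝ, 0 < c → (c • v ∈ C ↔ v ∈ C))
include hC

theorem tc_smul (u : E) {c : ℝ} (hc : 0 < c) : tc C (c • u) = tc C u := by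
  have key : ∀ (u : E) {c : ℝ}, 0 < c → tc C u ⊆ tc C (c • u) := by
    intro u c hc v hv
    have := (tendsto_mul_pos (inv_pos.2 hc)).eventually hv
    filter_upwards [this] with t ht
    have h1 := (hC _ c hc).2 ht
    rwa [smul_add, smul_smul, mul_comm t, ← mul_assoc, mul_inv_cancel₀ hc.ne', one_mul] at h1
  refine Subset.antisymm ?_ (key u hc)
  have := key (c • u) (inv_pos.2 hc)
  rwa [smul_smul, inv_mul_cancel₀ hc.ne', one_smul] at this

theorem self_mem_lin (u : E) : u ∈ lin C u := by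
  have key : ∀ (v : E) (c : ℝ), v ∈ tc C u → v + c • u ∈ tc C u := by
    intro v c hv
    have h0 : ∀ᶠ t : ℝ in 𝓝[>] 0, 0 < 1 + t * c := by
      have : Tendsto (fun t : ℝ => 1 + t * c) (𝓝 0) (𝓝 (1 + 0 * c)) :=
        (by fun_prop : Continuous fun t : ℝ => 1 + t * c).tendsto 0
      exact (this.eventually (lt_mem_nhds (by norm_num))).filter_mono nhdsWithin_le_nhds
    have h1 : Tendsto (fun t : ℝ => t / (1 + t * c)) (𝓝[>] 0) (𝓝[>] 0) := by
      refine tendsto_nhdsWithin_iff.2 ⟨?_, ?_⟩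
      · have : Tendsto (fun t : ℝ => t / (1 + t * c)) (𝓝 0) (𝓝 (0 / (1 + 0 * c))) :=
          ContinuousAt.tendsto (continuousAt_id.div (by fun_prop) (by norm_num))
        rw [zero_div] at this
        exact this.mono_left nhdsWithin_le_nhds
      · filter_upwards [h0, self_mem_nhdsWithin] with t h ht using div_pos ht h
    filter_upwards [h1.eventually hv, h0] with t ht h
    have h2 := (hC _ _ h).2 ht
    rw [smul_add, smul_smul, mul_div_cancel₀ _ h.ne'] at h2
    have e : u + t • (v + c • u) = (1 + t * c) • u + t • v := by module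
    rwa [e]
  intro v c
  refine ⟨fun h => ?_, key v c⟩
  have := key _ (-c) h
  rwa [add_assoc, ← add_smul, add_neg_cancel, zero_smul, add_zero] at this

end cone

theorem lin_le_lin (K : Set E) (x u : E) : lin K x ≤ lin (tc K x) u := by
  intro w hw v c
  rw [mem_tc (K := tc K x), mem_tc (K := tc K x)]
  refine eventually_congr (Eventually.of_forall fun t => ?_)
  rw [smul_add, smul_smul, ← add_assoc]
  exact hw _ _

theorem exists_radius {K : Set E} {x : E} (h : LocConeAt K x) :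
    ∃ r > 0, ∀ u : E, ‖u‖ < r → (u ∈ tc K x ↔ x + u ∈ K) ∧ tc K (x + u) = tc (tc K x) u := by
  obtain ⟨r, hr, H⟩ := h
  have h1 : ∀ u : E, ‖u‖ < r → (u ∈ tc K x ↔ x + u ∈ K) := by
    intro u hu
    have h2 : ∀ᶠ t : ℝ in 𝓝[>] 0, (x + t • u ∈ K ↔ x + u ∈ K) := by
      filter_upwards [Ioc_mem_nhdsGT (zero_lt_one' ℝ)] with t ht using H u hu.le t ht
    refine ⟨fun h3 => ?_, fun h3 => h2.mono fun t ht => ht.2 h3⟩
    obtain ⟨t, h4, h5⟩ := (h2.and h3).exists
    exact h4.1 h5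
  refine ⟨r, hr, fun u hu => ⟨h1 u hu, ?_⟩⟩
  ext v
  have h2 : ∀ᶠ t : ℝ in 𝓝[>] 0, ‖u + t • v‖ < r := by
    have : Tendsto (fun t : ℝ => ‖u + t • v‖) (𝓝 0) (𝓝 ‖u + (0:ℝ) • v‖) :=
      (by fun_prop : Continuous fun t : ℝ => ‖u + t • v‖).tendsto 0
    rw [zero_smul, add_zero] at this
    exact (this.eventually (gt_mem_nhds hu)).filter_mono nhdsWithin_le_nhds
  rw [mem_tc (K := tc K x), mem_tc (x := x + u)]
  refine eventually_congr ?_
  filter_upwards [h2] with t ht
  rw [h1 _ ht, add_assoc]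

variable [FiniteDimensional ℝ E]

/-- the strata -/
def strat (K : Set E) (d : ℕ) : Set E := {x | Module.finrank ℝ (lin K x) ≤ d}

theorem eventually_lin {K : Set E} {x : E} (h : LocConeAt K x) :
    ∀ᶠ y in 𝓝 x, Module.finrank ℝ (lin K x) ≤ Module.finrank ℝ (lin K y) ∧
      (Module.finrank ℝ (lin K y) ≤ Module.finrank ℝ (lin K x) → (y ∈ K ↔ x ∈ K)) := by
  obtain ⟨r, hr, H⟩ := exists_radius h
  filter_upwards [ball_mem_nhds x hr] with y hy
  rw [mem_ball, dist_eq_norm] at hy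
  obtain ⟨h1, h2⟩ := H _ hy
  rw [add_sub_cancel] at h1 h2
  have h3 : lin K x ≤ lin K y := lin_congr h2 ▸ lin_le_lin K x _
  refine ⟨Submodule.finrank_mono h3, fun h4 => ?_⟩
  have h5 : y - x ∈ lin K x := by
    rw [Submodule.eq_of_le_of_finrank_le h3 h4, lin_congr h2]
    exact self_mem_lin (fun v c hc => smul_mem_tc_iff hc) _
  have h6 := h5 0 1
  have h7 := (H 0 (by simpa using hr)).1
  rw [one_smul, zero_add] at h6
  rw [add_zero] at h7
  rw [← h1, h6, h7]

theorem isClosed_strat {K : Set E} (h : LocCone K) (d : ℕ) : IsClosed (strat K d) := by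
  rw [← isOpen_compl_iff, isOpen_iff_mem_nhds]
  intro x hx
  filter_upwards [eventually_lin (h x)] with y hy hy'
  exact hx (hy.1.trans hy')

omit [FiniteDimensional ℝ E] in
theorem locCone_strat {K : Set E} (h : LocCone K) (d : ℕ) : LocCone (strat K d) := by
  intro x
  obtain ⟨r, hr, H⟩ := exists_radius (h x)
  refine ⟨r / 2, half_pos hr, fun v hv t ht => ?_⟩
  have h1 : ‖t • v‖ < r :=
    (norm_smul_le_of_mem_Icc ⟨ht.1.le, ht.2⟩ hv).trans_lt (half_lt_self hr)
  have h2 : tc K (x + t • v) = tc K (x + v) := by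
    rw [(H _ h1).2, (H _ (hv.trans_lt (half_lt_self hr))).2,
      tc_smul (fun v c hc => smul_mem_tc_iff hc) v ht.1]
  show Module.finrank ℝ (lin K (x + t • v)) ≤ d ↔ Module.finrank ℝ (lin K (x + v)) ≤ d
  rw [lin_congr h2]

omit [FiniteDimensional ℝ E] in
theorem isPreconnected_ocell (Q : RCx E) (i : Q.ι) : IsPreconnected (Q.ocell i) := by
  obtain ⟨hB, φ, hφ⟩ := Q.ball i
  have h1 : Q.ocell i = φ.invFun '' ball 0 1 := by
    refine Subset.antisymm (fun x hx => ⟨φ.toFun x, ?_, φ.left_inv hx.1⟩) ?_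
    · have h2 := ball_union_sphere.symm.subset (φ.mapsTo hx.1)
      refine h2.resolve_right fun h3 => hx.2 ?_
      rw [← hφ] at h3
      obtain ⟨b, hb, e⟩ := h3
      exact φ.injOn (hB hb) hx.1 e ▸ hb
    · rintro _ ⟨y, hy, rfl⟩
      refine ⟨φ.mapsTo_inv (ball_subset_closedBall hy), fun hb => ?_⟩
      have h2 : φ.toFun (φ.invFun y) ∈ sphere 0 1 := hφ ▸ mem_image_of_mem _ hb
      rw [φ.right_inv (ball_subset_closedBall hy)] at h2
      exact (mem_ball.1 hy).ne (mem_sphere.1 h2)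
  rw [h1]
  exact (convex_ball _ _).isPreconnected.image _ (φ.cont_inv.mono ball_subset_closedBall)

/-- a locally conical set is a union of open cells of a complex adapted to its strata -/
theorem mem_iff_of_sub {K : Set E} (h : LocCone K) {Q : RCx E}
    (hs : ∀ d ≤ Module.finrank ℝ E, Q.Sub (strat K d)) {i : Q.ι} {x y : E}
    (hx : x ∈ Q.ocell i) (hy : y ∈ Q.ocell i) : x ∈ K ↔ y ∈ K := by
  have h1 : ∀ a ∈ Q.ocell i, ∀ b ∈ Q.ocell i,
      Module.finrank ℝ (lin K b) ≤ Module.finrank ℝ (lin K a) := fun a ha b hb =>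
    (hs _ (Submodule.finrank_le _)).cell_subset ha (le_refl (Module.finrank ℝ (lin K a))) hb.1
  refine (isPreconnected_ocell Q i).induction₂' (fun a b => (a ∈ K ↔ b ∈ K)) (fun a ha => ?_)
    (fun _ _ _ _ _ _ h1 h2 => h1.trans h2) hx hy
  filter_upwards [nhdsWithin_le_nhds (eventually_lin (h a)), self_mem_nhdsWithin] with b hb hb'
  exact ⟨(hb.2 (h1 a ha b hb')).symm, hb.2 (h1 a ha b hb')⟩

end P073.A4
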